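import Vale.Agent.P352.H846.Chg1
import Vale.Agent.P352.H731.Top3
import Vale.Agent.P352.H746.Iff2

set_option linter.all false

/-!
# P352: conformal invariance and the charges of the improved stress tensor
-/

noncomputable section

open Filter Topology
open scoped SchwartzMap

namespace Vale.Agent.P352.H15

open GF (Ix V Fn Fld Theory improve)
open H246 H496 H755 H846

variable {D : Type*} [NormedAddCommGroup D] [InnerProductSpace ℂ D]
variable {Q : Theory D} {T : Ix → Ix → Fld D} {J : Ix → Fld D} {A : (V → V) → D → D}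
  {K : V → D → D}

/-- **Conformal invariance**, with the identification of the charges. -/
theorem main_v4 (hT : Q.IsStress T) (hJ : IsVirial Q T J) (h : ConfGen Q A K)
    (hm : Mom Q T K ∨ Act Q J K) :
    ∃ L : Fld D, ∀ Q₁ : Theory D, IsEnl Q Q₁ → ∃ Q₂ : Theory D, IsEnl Q₁ Q₂ ∧
      Q₂.IsScalar L 2 ∧ Q₂.IsStress (improve T L) ∧ IsImpr Q₂ T (improve T L) ∧
      ConfAct Q₂ (improve T L) ∧
      (NullCharges Q T J A K → NoFlux T J →
        (∀ r X, IsSim r X → Chg Q₂ (improve T L) X (A X)) ∧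
        ∀ a, IsNull a → Chg Q₂ (improve T L) (cK a) (K a)) := by
  refine ⟨H746.Lf J K a0 b0, fun Q₁ he => ?_⟩
  have hT1 := H746.isStress_enl he hT
  obtain ⟨Q', h1, h2, h3⟩ := H731.main_L hT1 (H731.enl_virial he hJ) (H731.enl_conf he h)
    (hm.imp (H731.enl_mom he) (H731.enl_act he))
  obtain ⟨Q₂, g1, g2, g3, g4, g5, g6⟩ := exists_stress hT1 h1 h2 h3
    fun Q'' hQ => H746.isStress_enl (enl_trans he hQ) hT
  refine ⟨Q₂, g1, g3, g4, g5, H755.conf_act g6, fun hN hF => ?_⟩
  exact chg_all hT hJ hN ((H746.confGen_iff hT hJ hN).1 h) hF g3.1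
    (fun a b f v hp hf => H731.lf_agree hT hJ h hm npr0 hp hf v) g6

end Vale.Agent.P352.H15
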