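import Vale.Agent.P352.H15.NPDefs

open MeasureTheory Filter Topology
open scoped ComplexConjugate ContDiff

namespace Vale.Agent.P352.H15

open GF H246 H496 H755

noncomputable section

/-- `-Y·∂f` for the conformal Killing field `Y = cK a`. -/
def ky (a : V) (f : Fn) : Fn := fun x => -∑ n, (cK a x n : ℂ) * pd n f x

/-- the action of `K a` on the test functions of a quasi-primary scalar field of dimension `Δ`:
`-Y·∂f - (8 - 2Δ) (a·x) f` -/
def kd (a : V) (Δ : ℝ) (f : Fn) : Fn := fun x => ky a f x - ((8 - 2 * Δ) * mdot a x : ℝ) * f x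

variable {D : Type*} [NormedAddCommGroup D] [InnerProductSpace ℂ D]

/-- `c·J` -/
def ct (J : Ix → Fld D) (c : V) (f : Fn) (v : D) : D := ∑ m, ((eta m * c m : ℝ) : ℂ) • J m f v

/-- the bracket of `K a`, centred at `x`, with `c·J(x)`, smeared with `f` -/
def bk (J : Ix → Fld D) (K : V → D → D) (a c : V) (f : Fn) (v : D) : D :=
  K a (ct J c f v) - ct J c f (K a v) + Complex.I • (ct J c (kd a 3 f) v +
    ((2 * mdot a c : ℝ) : ℂ) • ∑ b, (eta b : ℂ) • J b (fun x => (x b : ℂ) * f x) v -
    (2 : ℂ) • ct J a (fun x => (mdot c x : ℂ) * f x) v)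

/-- `P` (with adjoint `P'`) commutes with the Bose fields in the causal complement of `O` -/
structure LocOp (Q : Theory D) (O : Set V) (P P' : D → D) : Prop where
  adj : ∀ v w, inner ℂ (P v) w = inner ℂ v (P' w)
  comm : ∀ A f v, Q.bose A → In (cc O) f → P (A f v) = A f (P v)
  comm' : ∀ A f v, Q.bose A → In (cc O) f → P' (A f v) = A f (P' v)

/-- The operators `K a` act locally on the fields `J m`: the operators that commute with the Bose
fields near the support of `f` commute with the commutator of `K a` and `J m f`. -/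
def Act (Q : Theory D) (J : Ix → Fld D) (K : V → D → D) : Prop :=
  ∀ a m O P P' f v, IsNull a → IsCompact O → LocOp Q O P P' → In (cc O) f →
    P (K a (J m f v) - J m f (K a v)) = K a (J m f (P v)) - J m f (K a (P v))

/-- `f` and `O` lie on different sides of a null hyperplane `a·x = u` -/
def Sepa (a : V) (f : Fn) (O : Set V) : Prop := ∃ u : ℝ,
  ((∀ x ∈ tsupport f, mdot a x < u) ∧ ∀ y ∈ O, u < mdot a y) ∨
  ((∀ x ∈ tsupport f, u < mdot a x) ∧ ∀ y ∈ O, mdot a y < u)

end

end Vale.Agent.P352.H15
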