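import Vale.Agent.P352.H15.NPDefs
import Vale.Agent.P352.Bdl.B2

set_option linter.all false

open MeasureTheory Filter Topology

namespace Vale.Agent.P352.H15

open GF (Ix V Fn IsLor sim bas eta o)
open H246 H496 H755

/-- Lorentz transformations preserve the Minkowski product. -/
lemma mdot_sim {L : Ix → V} (hL : IsLor L) (x y : V) :
    GF.mdot (sim 1 L 0 x) (sim 1 L 0 y) = GF.mdot x y := by
  have h : ∀ x y : V, GF.mdot (sim 1 L 0 x) (sim 1 L 0 y) =
      ∑ m, ∑ n, x m * y n * GF.mdot (L m) (L n) := by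
    intro x y
    unfold GF.mdot sim
    simp only [Fin.sum_univ_four, Pi.zero_apply]
    ring
  rw [h]
  unfold GF.mdot
  refine Finset.sum_congr rfl fun m _ => ?_
  have e : ∀ n, x m * y n * (∑ k, eta k * L m k * L n k) = x m * y n * bas m (eta m) n := by
    intro n
    rw [← hL.1 m n]
    rfl
  simp only [e]
  unfold bas
  simp only [mul_ite, mul_zero, Finset.sum_ite_eq', Finset.mem_univ, if_true]
  ring

/-- Proper orthochronous Lorentz transformations preserve the future null vectors. -/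
lemma isNull_lor {L : Ix → V} (hL : IsLor L) {a : V} (ha : IsNull a) : IsNull (sim 1 L 0 a) := by
  refine ⟨by rw [mdot_sim hL]; exact ha.1, ?_⟩
  have ht := lor_transpose hL 0 0
  have h1 := ha.1
  have h2 : 0 < a 0 := ha.2
  have h3 : 0 < L 0 0 := hL.2.1
  have e0 : eta 0 = 1 := rfl
  have e1 : eta 1 = -1 := by simp [eta, o]
  have e2 : eta 2 = -1 := by simp [eta, o]
  have e3 : eta 3 = -1 := by simp [eta, o]
  unfold GF.mdot at h1
  simp only [Fin.sum_univ_four, e0, e1, e2, e3, bas] at ht h1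
  simp only [if_true] at ht
  show 0 < sim 1 L 0 a 0
  simp only [sim, Fin.sum_univ_four, Pi.zero_apply, one_mul, zero_add]
  have hc : (a 1 * L 1 0 + a 2 * L 2 0 + a 3 * L 3 0) ^ 2 ≤
      (a 1 ^ 2 + a 2 ^ 2 + a 3 ^ 2) * (L 1 0 ^ 2 + L 2 0 ^ 2 + L 3 0 ^ 2) := by
    nlinarith [sq_nonneg (a 1 * L 2 0 - a 2 * L 1 0), sq_nonneg (a 1 * L 3 0 - a 3 * L 1 0),
      sq_nonneg (a 2 * L 3 0 - a 3 * L 2 0)]
  have ha2 : a 1 ^ 2 + a 2 ^ 2 + a 3 ^ 2 = a 0 ^ 2 := by linear_combination -h1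
  have hl2 : L 1 0 ^ 2 + L 2 0 ^ 2 + L 3 0 ^ 2 = L 0 0 ^ 2 - 1 := by linear_combination -ht
  rw [ha2, hl2] at hc
  by_contra hneg
  push Not at hneg
  have h5 : 0 < a 0 * L 0 0 := mul_pos h2 h3
  have h6 : a 0 * L 0 0 ≤ -(a 1 * L 1 0 + a 2 * L 2 0 + a 3 * L 3 0) := by linarith
  have h7 : (a 0 * L 0 0) ^ 2 ≤ (a 1 * L 1 0 + a 2 * L 2 0 + a 3 * L 3 0) ^ 2 := by
    rw [← neg_sq (a 1 * L 1 0 + a 2 * L 2 0 + a 3 * L 3 0)]
    exact pow_le_pow_left₀ h5.le h6 2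
  nlinarith [mul_pos h2 h2]

end Vale.Agent.P352.H15
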