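import Vale.Agent.P352.H15.NPDefs

set_option linter.all false

open MeasureTheory Filter Topology

namespace Vale.Agent.P352.H15

open GF H246 H496 H755

variable {D : Type*} [NormedAddCommGroup D] [InnerProductSpace ℂ D]

/-- symmetry of spacelike separation -/
lemma sep_symm {f g : Fn} (h : Sep f g) : Sep g f := by
  intro x hx y hy
  have h1 := h y hy x hx
  have e : mdot (fun m => x m - y m) (fun m => x m - y m) =
      mdot (fun m => y m - x m) (fun m => y m - x m) := by
    unfold mdot
    refine Finset.sum_congr rfl fun m _ => ?_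
    ring
  rw [e]; exact h1

/-- the theory with one more scalar field -/
theorem exists_enl (Q : Theory D) (L : Fld D)
    (hlin : ∀ f g (c : ℂ) v, IsTest f → IsTest g →
      L (fun x => f x + c * g x) v = L f v + c • L g v)
    (hcont : ∀ v, Continuous fun g => L (ev g) v)
    (hherm : ∀ f v w, IsTest f → inner ℂ (L f v) w = inner ℂ v (L (bar f) w))
    (hloc : ∀ B f g v, Q.fld B → IsTest f → IsTest g → Sep f g → L f (B g v) = B g (L f v))
    (hloc2 : ∀ f g v, IsTest f → IsTest g → Sep f g → L f (L g v) = L g (L f v))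
    (hcov : ∀ s M a f v, 0 < s → IsLor M → IsTest f → L f (Q.U s M a v) =
      ((s ^ (4 - 2 : ℝ) : ℝ) : ℂ) • Q.U s M a (L (fun x => f (sim s M a x)) v)) :
    ∃ Q' : Theory D, IsEnl Q Q' ∧ Q'.IsScalar L 2 := by
  have hone : IsLor GF.one := by
    refine ⟨fun m n => ?_, ?_, ?_⟩
    · unfold GF.one mdot bas eta o
      fin_cases m <;> fin_cases n <;> simp [Fin.sum_univ_four]
    · simp [GF.one, bas, o]
    · have : (GF.one : Ix → V) = (1 : Matrix Ix Ix ℝ) := by
        funext m n
        simp [GF.one, bas, Matrix.one_apply, eq_comm]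
      rw [this]; exact Matrix.det_one
  refine ⟨
    { vac := Q.vac
      fld := fun A => Q.fld A ∨ A = L
      bose := fun A => Q.bose A ∨ A = L
      U := Q.U
      norm_vac := Q.norm_vac
      cyclic := ?_
      lin := ?_
      cont := ?_
      adj := ?_
      bose_fld := ?_
      loc := ?_
      U_inner := Q.U_inner
      U_vac := Q.U_vac
      transl := ?_
      spectrum := Q.spectrum }, ⟨rfl, rfl, fun A h => Or.inl h, fun A h => Or.inl h⟩, Or.inr rfl,
      fun f v w hf => hherm f v w hf, fun s M a f v hs hM hf => hcov s M a f v hs hM hf⟩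
  · intro S h0 h
    exact Q.cyclic S h0 fun A f v hA hf hv => h A f v (Or.inl hA) hf hv
  · rintro A f g c v (hA | rfl) hf hg
    · exact Q.lin A f g c v hA hf hg
    · exact hlin f g c v hf hg
  · rintro A v (hA | rfl)
    · exact Q.cont A v hA
    · exact hcont v
  · rintro A (hA | rfl)
    · obtain ⟨B, hB, h⟩ := Q.adj A hA
      exact ⟨B, Or.inl hB, h⟩
    · exact ⟨A, Or.inr rfl, fun f v w hf => hherm f v w hf⟩
  · rintro A (hA | rfl)
    · exact Or.inl (Q.bose_fld A hA)
    · exact Or.inr rfl
  · rintro A B f g v (hA | rfl) (hB | rfl) hf hg hs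
    · exact Q.loc A B f g v hA hB hf hg hs
    · exact (hloc A g f v (Q.bose_fld A hA) hg hf (sep_symm hs)).symm
    · exact hloc B f g v hB hf hg hs
    · exact hloc2 f g v hf hg hs
  · rintro A a f v (hA | rfl) hf
    · exact Q.transl A a f v hA hf
    · have h := hcov 1 GF.one a f v one_pos hone hf
      simpa using h

end Vale.Agent.P352.H15
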