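import Vale.Agent.P352.H15.Lor
import Vale.Agent.P352.H15.BkDefs
import Vale.Agent.P352.H746.PtGen
import Vale.Agent.P352.H746.Vjm

set_option linter.all false

noncomputable section

open MeasureTheory SchwartzMap Complex Filter Topology
open scoped SchwartzMap ComplexConjugate ENNReal NNReal LineDeriv

namespace Vale.Agent.P352.H15

open GF (Ix V Fn Sch ev pd bar sim bas o IsLor IsTest)
open H246 H496 H755 H746
open UniformSpace (Completion)

variable {D : Type*} [NormedAddCommGroup D] [InnerProductSpace ℂ D]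
variable {Q : GF.Theory D} {T : Ix → Ix → GF.Fld D} {J : Ix → GF.Fld D}
variable {A : (V → V) → D → D} {K : V → D → D}

/-! ### Elementary facts -/

lemma K_add (h : ConfGen Q A K) {a : V} (ha : IsNull a) (v w : D) :
    K a (v + w) = K a v + K a w := by
  refine ext_inner_left ℂ fun z => ?_
  rw [← h.symm a z (v + w) ha, inner_add_right, inner_add_right, h.symm a z v ha,
    h.symm a z w ha]

lemma K_smul (h : ConfGen Q A K) {a : V} (ha : IsNull a) (c : ℂ) (v : D) :
    K a (c • v) = c • K a v := by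
  refine ext_inner_left ℂ fun z => ?_
  rw [← h.symm a z (c • v) ha, inner_smul_right, inner_smul_right, h.symm a z v ha]

/-- the difference of the conformal field centred at `x` and the one centred at the origin -/
def Xf (a x : V) : V → V := fun z =>
  -(2 * GF.mdot a x) • z + (2 * GF.mdot x z) • a - (2 * GF.mdot a z) • x + cK a x

lemma isSim_Xf (a x : V) : IsSim (-(2 * GF.mdot a x)) (Xf a x) := by
  refine ⟨cK a x, fun m n => 2 * GF.eta m * (x m * a n - a m * x n), fun m n => ?_, fun z n => ?_⟩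
  · ring
  · unfold Xf
    simp only [Pi.add_apply, Pi.sub_apply, Pi.smul_apply, smul_eq_mul, GF.mdot, Fin.sum_univ_four]
    ring

lemma Xf_add (a b x : V) (c : ℝ) : Xf (a + c • b) x = fun z => Xf a x z + c • Xf b x z := by
  funext z n
  simp only [Xf, cK, Pi.add_apply, Pi.sub_apply, Pi.smul_apply, smul_eq_mul, GF.mdot,
    Fin.sum_univ_four]
  ring

lemma isSim_zero : IsSim 0 (fun _ => (0 : V)) := by
  refine ⟨0, 0, fun m n => by simp, fun z n => by simp⟩

lemma A_zero (h : Rep Q A) (v : D) : A (fun _ => 0) v = 0 := by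
  have := h.add 0 0 1 (fun _ => 0) (fun _ => 0) v isSim_zero isSim_zero
  simpa using this

lemma A_sum (h : Rep Q A) {ι : Type*} (s : Finset ι) (n : ι → V) (c : ι → ℝ) (x : V) (v : D) :
    A (Xf (∑ i ∈ s, c i • n i) x) v = ∑ i ∈ s, (c i : ℂ) • A (Xf (n i) x) v := by
  classical
  induction s using Finset.induction_on with
  | empty =>
    have e : Xf 0 x = fun _ => 0 := by
      funext z k
      simp [Xf, cK, GF.mdot]
    simp only [Finset.sum_empty]
    rw [e]
    exact A_zero h v
  | insert i s hi ih =>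
    rw [Finset.sum_insert hi, Finset.sum_insert hi, add_comm (c i • n i), Xf_add,
      h.add _ _ _ _ _ _ (isSim_Xf _ _) (isSim_Xf _ _), ih, add_comm]

/-- the similitudes as linear maps -/
def Ulin (Q : GF.Theory D) {s : ℝ} (hs : 0 < s) {L : Ix → V} (hL : IsLor L) (a : V) :
    D →ₗ[ℂ] D where
  toFun := Q.U s L a
  map_add' := U_add hs hL a
  map_smul' := U_smul hs hL a

lemma U_sum {s : ℝ} (hs : 0 < s) {L : Ix → V} (hL : IsLor L) (a : V) {ι : Type*} (t : Finset ι)
    (c : ι → ℂ) (w : ι → D) : Q.U s L a (∑ i ∈ t, c i • w i) = ∑ i ∈ t, c i • Q.U s L a (w i) := by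
  show Ulin Q hs hL a _ = ∑ i ∈ t, c i • Ulin Q hs hL a _
  rw [map_sum]
  simp only [map_smul]

/-! ### Linear combinations of the generators -/

section

variable {ι : Type*} [Fintype ι] (n : ι → V) (c : ι → ℝ)

/-- linear combination -/
def Zc (K : V → D → D) (v : D) : D := ∑ i, (c i : ℂ) • K (n i) v

variable (h : ConfGen Q A K) (hn : ∀ i, IsNull (n i))
include h hn

lemma Zc_add (v w : D) : Zc n c K (v + w) = Zc n c K v + Zc n c K w := by
  unfold Zc
  rw [← Finset.sum_add_distrib]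
  exact Finset.sum_congr rfl fun i _ => by rw [K_add h (hn i), smul_add]

lemma Zc_smul (r : ℂ) (v : D) : Zc n c K (r • v) = r • Zc n c K v := by
  unfold Zc
  rw [Finset.smul_sum]
  exact Finset.sum_congr rfl fun i _ => by rw [K_smul h (hn i), smul_comm]

lemma Zc_symm (v w : D) : inner ℂ (Zc n c K v) w = inner ℂ v (Zc n c K w) := by
  unfold Zc
  rw [sum_inner, inner_sum]
  refine Finset.sum_congr rfl fun i _ => ?_
  rw [inner_smul_left, inner_smul_right, h.symm _ _ _ (hn i)]
  simp

variable (hc : ∑ i, c i • n i = 0)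
include hc

lemma Zc_tra (x : V) (v : D) : Q.U 1 GF.one x (Zc n c K (Q.U 1 GF.one (-x) v)) = Zc n c K v := by
  unfold Zc
  rw [U_sum one_pos isLor_one]
  have e2 : ∀ i, Q.U 1 GF.one x (K (n i) (Q.U 1 GF.one (-x) v)) = K (n i) v + A (Xf (n i) x) v :=
    fun i => h.tra (n i) x v (hn i)
  simp only [e2, smul_add, Finset.sum_add_distrib]
  have e3 := A_sum h.toRep Finset.univ n c x v
  rw [hc] at e3
  have e : Xf 0 x = fun _ => 0 := by
    funext z k
    simp [Xf, cK, GF.mdot]
  rw [e, A_zero h.toRep] at e3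
  rw [← e3, add_zero]

lemma Zc_U1 (x : Mink) (v : D) : U1 Q x (Zc n c K v) = Zc n c K (U1 Q x v) := by
  have h1 := Zc_tra n c h hn hc x.ofLp (U1 Q x v)
  have h2 : Q.U 1 GF.one (-x.ofLp) (U1 Q x v) = v := by
    have h3 := U1_U1_all (-x) x v (Q := Q)
    rw [neg_add_cancel, U1_zero_all] at h3
    exact h3
  rw [h2] at h1
  exact h1

omit hc in
lemma Zc_scale {s : ℝ} (hs : 0 < s) (v : D) :
    Zc n c K (Q.U s GF.one 0 v) = (s : ℂ) • Q.U s GF.one 0 (Zc n c K v) := by
  unfold Zc
  rw [U_sum hs isLor_one, Finset.smul_sum]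
  refine Finset.sum_congr rfl fun i _ => ?_
  have h1 := h.cov s GF.one 1 (n i) (n i) v hs one_pos isLor_one (hn i) (hn i)
    (by rw [one_smul]; funext k; simp [sim, GF.one, bas])
  rw [h1, smul_smul, smul_smul]
  congr 1
  have : (s : ℂ) ≠ 0 := by exact_mod_cast hs.ne'
  push_cast
  field_simp

/-! ### The fourth power applied to the current -/

omit hc in
lemma Zc_iter_add (k : ℕ) (v w : D) :
    (Zc n c K)^[k] (v + w) = (Zc n c K)^[k] v + (Zc n c K)^[k] w := by
  induction k with
  | zero => rfl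
  | succ k ih => rw [Function.iterate_succ_apply', Function.iterate_succ_apply',
      Function.iterate_succ_apply', ih, Zc_add n c h hn]

omit hc in
lemma Zc_iter_smul (k : ℕ) (r : ℂ) (v : D) :
    (Zc n c K)^[k] (r • v) = r • (Zc n c K)^[k] v := by
  induction k with
  | zero => rfl
  | succ k ih => rw [Function.iterate_succ_apply', Function.iterate_succ_apply', ih,
      Zc_smul n c h hn]

omit hc in
lemma Zc_iter_symm (k : ℕ) (v w : D) :
    inner ℂ ((Zc n c K)^[k] v) w = inner ℂ v ((Zc n c K)^[k] w) := by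
  induction k generalizing v w with
  | zero => rfl
  | succ k ih => rw [Function.iterate_succ_apply', Function.iterate_succ_apply, ← ih,
      Zc_symm n c h hn, ih]

lemma Zc_iter_U1 (k : ℕ) (x : Mink) (v : D) :
    U1 Q x ((Zc n c K)^[k] v) = (Zc n c K)^[k] (U1 Q x v) := by
  induction k with
  | zero => rfl
  | succ k ih => rw [Function.iterate_succ_apply', Function.iterate_succ_apply',
      Zc_U1 n c h hn hc, ih]

omit hc in
lemma Zc_iter_scale (k : ℕ) {s : ℝ} (hs : 0 < s) (v : D) :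
    (Zc n c K)^[k] (Q.U s GF.one 0 v) = ((s : ℂ) ^ k) • Q.U s GF.one 0 ((Zc n c K)^[k] v) := by
  induction k with
  | zero => simp
  | succ k ih => rw [Function.iterate_succ_apply', Function.iterate_succ_apply', ih,
      Zc_smul n c h hn, Zc_scale n c h hn hs, smul_smul]; ring_nf

variable (hJ : IsVirial Q T J) (m : Ix)
include hJ

omit hc in
/-- the vector valued distribution `Z^k J_m(f) Ω` -/
lemma exists_kap (k : ℕ) : ∃ κ : 𝓢(Mink, ℂ) →L[ℂ] Completion D, ∀ f,
    κ f = (((Zc n c K)^[k] (J m (fl f) Q.vac) : D) : Completion D) := by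
  have hJm := Q.bose_fld _ (hJ.bose m)
  have := barrelled_schwartz
  set Ψ : 𝓢(Mink, ℂ) →ₗ[ℂ] D :=
    { toFun := fun f => (Zc n c K)^[k] (J m (fl f) Q.vac)
      map_add' := fun f g => by rw [fld_addf hJm, Zc_iter_add n c h hn]
      map_smul' := fun r f => by rw [fld_smulf hJm, Zc_iter_smul n c h hn]; rfl } with hΨ
  have hcont : Continuous Ψ := by
    refine cont_of_weak Ψ (Z := Set.univ) dense_univ fun z _ => ?_
    have e : (fun f : 𝓢(Mink, ℂ) => inner ℂ z (Ψ f)) = fun f =>
        inner ℂ ((Zc n c K)^[k] z) (J m (fl f) Q.vac) := by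
      funext f
      show inner ℂ z ((Zc n c K)^[k] (J m (fl f) Q.vac)) = _
      rw [Zc_iter_symm n c h hn]
    rw [e]
    exact continuous_const.inner (fld_cont hJm Q.vac)
  exact ⟨⟨(Completion.toComplₗᵢ (𝕜 := ℂ) (E := D)).toLinearMap ∘ₗ Ψ,
    (Completion.continuous_coe D).comp hcont⟩, fun f => rfl⟩

/-- the scaling relation -/
lemma kap_norm {κ : 𝓢(Mink, ℂ) →L[ℂ] Completion D}
    (hκ : ∀ f, κ f = (((Zc n c K)^[4] (J m (fl f) Q.vac) : D) : Completion D)) {s : ℝ}
    (hs : 0 < s) (f : 𝓢(Mink, ℂ)) : ‖κ f‖ = s ^ 5 * ‖κ (simS s hs isLor_one 0 f)‖ := by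
  have h1 := hJ.cov m s GF.one 0 (fl f) Q.vac hs isLor_one (isTest_fl f)
  rw [Q.U_vac s GF.one 0 hs isLor_one] at h1
  have h2 : ∑ k, ((s * GF.one k m : ℝ) : ℂ) • Q.U s GF.one 0
      (J k (fun x => fl f (sim s GF.one 0 x)) Q.vac) =
      (s : ℂ) • Q.U s GF.one 0 (J m (fl (simS s hs isLor_one 0 f)) Q.vac) := by
    rw [Finset.sum_eq_single m]
    · simp only [GF.one, bas, if_true, mul_one]
      rw [← fl_sim s hs isLor_one]
    · intro k _ hk
      simp [GF.one, bas, hk, Ne.symm hk]
    · simp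
  have h3 : J m (fl f) Q.vac = (s : ℂ) •
      Q.U s GF.one 0 (J m (fl (simS s hs isLor_one 0 f)) Q.vac) := by
    rw [h1, ← h2]
    refine Finset.sum_congr rfl fun k _ => ?_
    push_cast
    rfl
  rw [hκ, hκ, h3, Zc_iter_smul n c h hn, Zc_iter_scale n c h hn 4 hs, Completion.norm_coe,
    Completion.norm_coe, norm_smul, norm_smul, U_nrm hs isLor_one]
  simp only [norm_pow, Complex.norm_real, Real.norm_eq_abs, abs_of_pos hs]
  ring

omit h hn hc hJ in
lemma cvd_norm_sq {κ : 𝓢(Mink, ℂ) →L[ℂ] Completion D} {μ : Measure Mink} (Kd : Cvd Q κ μ)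
    (f : 𝓢(Mink, ℂ)) : ‖κ f‖ ^ 2 = ∫ p, ‖mft f p‖ ^ 2 ∂μ := by
  have h1 := Kd.two f f
  rw [inner_self_eq_norm_sq_to_K] at h1
  have h2 : ∫ p, conj (mft f p) * mft f p ∂μ = ((∫ p, ‖mft f p‖ ^ 2 ∂μ : ℝ) : ℂ) := by
    rw [← integral_complex_ofReal]
    refine integral_congr_ae (Eventually.of_forall fun p => ?_)
    show conj (mft f p) * mft f p = ((‖mft f p‖ ^ 2 : ℝ) : ℂ)
    rw [← Complex.normSq_eq_conj_mul_self, Complex.normSq_eq_norm_sq]
  rw [h2] at h1
  apply Complex.ofReal_injective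
  rw [← h1]
  push_cast
  rfl

/-- the distribution of negative dimension vanishes -/
lemma kap_zero {κ : 𝓢(Mink, ℂ) →L[ℂ] Completion D}
    (hκ : ∀ f, κ f = (((Zc n c K)^[4] (J m (fl f) Q.vac) : D) : Completion D)) (f : 𝓢(Mink, ℂ)) :
    κ f = 0 := by
  have hJm := Q.bose_fld _ (hJ.bose m)
  have cov : ∀ g (a : Mink) (z : D), inner ℂ ((U1 Q a z : D) : Completion D) (κ (tauS a g)) =
      inner ℂ (z : Completion D) (κ g) := by
    intro g a z
    have h1 : J m (fl (tauS a g)) Q.vac = U1 Q a (J m (fl g) Q.vac) := by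
      have h2 : U1 Q a (J m (fl g) Q.vac) = J m (fl (tauS a g)) (U1 Q a Q.vac) :=
        U_fld hJm g a Q.vac
      rw [h2, U1_vac]
    rw [hκ, hκ, h1, ← Zc_iter_U1 n c h hn hc, Completion.inner_coe, Completion.inner_coe, U1_inner]
  obtain ⟨μ, Kd⟩ := exists_cvd κ cov
  have := Kd.fin
  -- compactly supported Fourier transforms
  have key : ∀ G : 𝓢(Mink, ℂ), HasCompactSupport G → ∫ p, ‖G p‖ ^ 2 ∂μ = 0 := by
    intro G hG
    obtain ⟨g, hg⟩ := mftS_surj G
    have hg' : ∀ p, mft g p = G p := fun p => by rw [← hg, mftS_apply]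
    obtain ⟨R, hR⟩ := hG.isCompact.isBounded.subset_closedBall (0 : Mink)
    obtain ⟨C, hC⟩ := hG.exists_bound_of_continuous G.continuous
    have hC0 : 0 ≤ C := (norm_nonneg _).trans (hC 0)
    have hb : ∀ s : ℝ, 0 < s → s ≤ 1 →
        ∫ p, ‖G p‖ ^ 2 ∂μ ≤ s ^ 2 * (C ^ 2 * μ.real (Metric.closedBall 0 R)) := by
      intro s hs hs1
      have h1 := kap_norm n c h hn hc hJ m hκ hs g
      have h2 : ∫ p, ‖G p‖ ^ 2 ∂μ = ‖κ g‖ ^ 2 := by
        rw [cvd_norm_sq Kd]
        simp only [hg']
      have h3 : ‖κ (simS s hs isLor_one 0 g)‖ ^ 2 =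
          ∫ p, (s ^ 8)⁻¹ * ‖G (s⁻¹ • p)‖ ^ 2 ∂μ := by
        rw [cvd_norm_sq Kd]
        refine integral_congr_ae (Eventually.of_forall fun p => ?_)
        show ‖mft (simS s hs isLor_one 0 g) p‖ ^ 2 = _
        rw [mft_simS, norm_mul, norm_mul, norm_chr, one_mul, hg', Complex.norm_real,
          Real.norm_of_nonneg (by positivity)]
        have e : lam GF.one p = p := by
          ext k
          simp [lam_apply, GF.one, bas]
        rw [e]
        ring
      have h4 : ∫ p, (s ^ 8)⁻¹ * ‖G (s⁻¹ • p)‖ ^ 2 ∂μ ≤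
          (s ^ 8)⁻¹ * (C ^ 2 * μ.real (Metric.closedBall 0 R)) := by
        rw [integral_const_mul]
        refine mul_le_mul_of_nonneg_left ?_ (by positivity)
        have h5 : ∀ p, ‖G (s⁻¹ • p)‖ ^ 2 ≤
            (Metric.closedBall (0 : Mink) R).indicator (fun _ => C ^ 2) p := by
          intro p
          by_cases hp : p ∈ Metric.closedBall (0 : Mink) R
          · rw [Set.indicator_of_mem hp]
            exact pow_le_pow_left₀ (norm_nonneg _) (hC _) 2
          · rw [Set.indicator_of_notMem hp]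
            have : G (s⁻¹ • p) = 0 := by
              by_contra h0
              apply hp
              have h6 := hR (subset_tsupport _ h0)
              rw [mem_closedBall_zero_iff, norm_smul, norm_inv, Real.norm_of_nonneg hs.le] at h6
              rw [mem_closedBall_zero_iff]
              have h7 : ‖p‖ ≤ s⁻¹ * ‖p‖ := by
                have : 1 ≤ s⁻¹ := (one_le_inv₀ hs).2 hs1
                nlinarith [norm_nonneg p]
              exact h7.trans h6
            rw [this]; simp
        have h8 : Integrable ((Metric.closedBall (0 : Mink) R).indicator (fun _ => C ^ 2)) μ := by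
          rw [integrable_indicator_iff Metric.isClosed_closedBall.measurableSet]
          exact integrableOn_const (isCompact_closedBall _ _).measure_lt_top.ne
        calc ∫ p, ‖G (s⁻¹ • p)‖ ^ 2 ∂μ ≤
            ∫ p, (Metric.closedBall (0 : Mink) R).indicator (fun _ => C ^ 2) p ∂μ :=
              integral_mono_of_nonneg (Eventually.of_forall fun p => by positivity) h8
                (Eventually.of_forall h5)
          _ = C ^ 2 * μ.real (Metric.closedBall 0 R) := by
              rw [integral_indicator Metric.isClosed_closedBall.measurableSet, setIntegral_const,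
                smul_eq_mul, mul_comm]
      rw [h2, h1, mul_pow, h3]
      calc (s ^ 5) ^ 2 * ∫ p, (s ^ 8)⁻¹ * ‖G (s⁻¹ • p)‖ ^ 2 ∂μ ≤
          (s ^ 5) ^ 2 * ((s ^ 8)⁻¹ * (C ^ 2 * μ.real (Metric.closedBall 0 R))) :=
            mul_le_mul_of_nonneg_left h4 (by positivity)
        _ = s ^ 2 * (C ^ 2 * μ.real (Metric.closedBall 0 R)) := by
            field_simp
    refine le_antisymm ?_ (integral_nonneg fun p => by positivity)
    have hlim : Tendsto (fun s : ℝ => s ^ 2 * (C ^ 2 * μ.real (Metric.closedBall 0 R)))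
        (𝓝[>] 0) (𝓝 0) := by
      have : Tendsto (fun s : ℝ => s ^ 2 * (C ^ 2 * μ.real (Metric.closedBall 0 R)))
          (𝓝 0) (𝓝 (0 ^ 2 * (C ^ 2 * μ.real (Metric.closedBall 0 R)))) :=
        ((continuous_pow 2).mul continuous_const).tendsto 0
      simp only [ne_eq, OfNat.ofNat_ne_zero, not_false_eq_true, zero_pow, zero_mul] at this
      exact this.mono_left nhdsWithin_le_nhds
    refine ge_of_tendsto hlim ?_
    have h1 : ∀ᶠ s : ℝ in 𝓝[>] 0, s ∈ Set.Ioo (0 : ℝ) 1 := Ioo_mem_nhdsGT one_pos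
    filter_upwards [h1] with s hs
    exact hb s hs.1 hs.2.le
  -- balls have measure zero
  have hball : ∀ R : ℝ, 0 < R → μ (Metric.closedBall 0 R) = 0 := by
    intro R hR
    let b : ContDiffBump (0 : Mink) := ⟨R, R + 1, hR, by linarith⟩
    have hbs : HasCompactSupport (fun x => ((b x : ℝ) : ℂ)) := by
      have := b.hasCompactSupport
      exact this.comp_left (g := fun t : ℝ => (t : ℂ)) (by simp)
    have hbc : ContDiff ℝ ((⊤ : ℕ∞) : WithTop ℕ∞) (fun x => ((b x : ℝ) : ℂ)) :=
      Complex.ofRealCLM.contDiff.comp b.contDiff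
    have h1 := key (hbs.toSchwartzMap hbc) hbs
    have h2 : Integrable (fun p => ‖(hbs.toSchwartzMap hbc) p‖ ^ 2) μ := by
      have hcs : HasCompactSupport (fun p => ‖(hbs.toSchwartzMap hbc) p‖ ^ 2) :=
        hbs.comp_left (g := fun z : ℂ => ‖z‖ ^ 2) (by simp)
      exact Continuous.integrable_of_hasCompactSupport
        ((hbs.toSchwartzMap hbc).continuous.norm.pow 2) hcs
    rw [integral_eq_zero_iff_of_nonneg (fun p => by positivity) h2] at h1
    have h3 : μ {p | ¬ (‖(hbs.toSchwartzMap hbc) p‖ ^ 2 = 0)} = 0 := h1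
    refine measure_mono_null ?_ h3
    intro p hp
    have h4 : b p = 1 := b.one_of_mem_closedBall hp
    show ¬ (‖((b p : ℝ) : ℂ)‖ ^ 2 = 0)
    rw [h4]; simp
  have hμ : μ = 0 := by
    rw [← Measure.measure_univ_eq_zero]
    have : (Set.univ : Set Mink) = ⋃ k : ℕ, Metric.closedBall 0 ((k : ℝ) + 1) := by
      symm
      rw [Set.eq_univ_iff_forall]
      intro p
      obtain ⟨k, hk⟩ := exists_nat_ge ‖p‖
      exact Set.mem_iUnion.2 ⟨k, by rw [mem_closedBall_zero_iff]; linarith⟩
    rw [this]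
    exact measure_iUnion_null fun k => hball _ (by positivity)
  have h9 := cvd_norm_sq Kd f
  rw [hμ, integral_zero_measure] at h9
  exact norm_eq_zero.1 (pow_eq_zero_iff (two_ne_zero)|>.1 h9)

end

/-- ROW R2-Z: on the vectors `J_m(f) Ω` the generators `K a` depend linearly on `a`. -/
theorem k_lin (h : ConfGen Q A K) (hJ : IsVirial Q T J) {ι : Type*} [Fintype ι] (n : ι → V)
    (c : ι → ℝ) (hn : ∀ i, IsNull (n i)) (hc : ∑ i, c i • n i = 0) (m : Ix) (f : Fn)
    (hf : GF.IsTest f) : ∑ i, (c i : ℂ) • K (n i) (J m f Q.vac) = 0 := by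
  obtain ⟨F, rfl⟩ := exists_fl hf
  obtain ⟨κ, hκ⟩ := exists_kap n c h hn hJ m 4
  have h0 := kap_zero n c h hn hc hJ m hκ F
  rw [hκ] at h0
  have h1 : (Zc n c K)^[4] (J m (fl F) Q.vac) = 0 := by
    have : (((Zc n c K)^[4] (J m (fl F) Q.vac) : D) : Completion D) = ((0 : D) : Completion D) := by
      rw [h0, Completion.coe_zero]
    exact Completion.coe_injective D this
  set v := J m (fl F) Q.vac with hv
  have h2 : (Zc n c K)^[2] v = 0 := by
    have e : inner ℂ ((Zc n c K)^[2] v) ((Zc n c K)^[2] v) = 0 := by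
      rw [Zc_iter_symm n c h hn 2, ← Function.iterate_add_apply, h1, inner_zero_right]
    exact inner_self_eq_zero.1 e
  have h3 : (Zc n c K) v = 0 := by
    have e : inner ℂ (Zc n c K v) (Zc n c K v) = 0 := by
      rw [Zc_symm n c h hn]
      have : Zc n c K (Zc n c K v) = 0 := h2
      rw [this, inner_zero_right]
    exact inner_self_eq_zero.1 e
  exact h3

end Vale.Agent.P352.H15
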