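import Vale.Agent.P352.H15.Enl
import Vale.Agent.P352.H15.Lor
import Vale.Agent.P352.H746.Bk3
import Vale.Agent.P352.H731.Ten
import Vale.Agent.P352.H148.R3
import Vale.Agent.P352.H993.TrFin
import Vale.Agent.P352.H846.Al
import Vale.Agent.P352.H496.LTr
import Vale.Agent.P352.H496.Imp
import Vale.Agent.P352.H755.R7

set_option linter.all false

/-!
# P352: the improvement field from conformal generators
-/

noncomputable section

open MeasureTheory Filter Topology SchwartzMap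
open scoped SchwartzMap ComplexConjugate LineDeriv

namespace Vale.Agent.P352.H15

open GF (Ix V Fn Fld Theory Sch IsLor bas eta o sim pd tr improve ev bar Sep)
open H246 H496 H755 H746 H846

variable {D : Type*} [NormedAddCommGroup D] [InnerProductSpace ℂ D]
variable {Q : GF.Theory D} {T : Ix → Ix → GF.Fld D} {J : Ix → GF.Fld D} {A : (V → V) → D → D}
  {K : V → D → D}

/-- a null vector -/
def a0 : V := fun n => if n = 0 ∨ n = 1 then 1 else 0

/-- a null vector -/
def b0 : V := fun n => if n = 0 then 1 / 2 else if n = 1 then -(1 / 2) else 0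

lemma npr0 : NPr a0 b0 := by
  refine ⟨⟨?_, ?_⟩, ⟨?_, ?_⟩, ?_⟩
  · simp [GF.mdot, a0, eta, o, Fin.sum_univ_four]
  · simp [a0, o]
  · simp [GF.mdot, b0, eta, o, Fin.sum_univ_four]
  · simp [b0, o]
  · simp [GF.mdot, a0, b0, eta, o, Fin.sum_univ_four]
    norm_num

lemma eta_sq_c (m : Ix) : (eta m : ℂ) * (eta m : ℂ) = 1 := by
  fin_cases m <;> simp [eta, o]

/-- test functions -/
lemma isTest_pd {m : Ix} {f : Fn} (hf : GF.IsTest f) : GF.IsTest (pd m f) := by
  obtain ⟨F, rfl⟩ := exists_fl hf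
  rw [pd_fl]
  exact isTest_fl _

/-- the trace of the improved tensor -/
lemma tr_improve {L : Fld D}
    (hlin : ∀ f g (c : ℂ) v, GF.IsTest f → GF.IsTest g →
      L (fun x => f x + c * g x) v = L f v + c • L g v) {f : Fn} (hf : GF.IsTest f) (v : D) :
    tr (improve T L) f v = tr T f v - (3 : ℂ) • L (box f) v := by
  have hz : L (fun _ => 0) v = 0 := by
    have h0 : GF.IsTest (fun _ : V => (0 : ℂ)) := ⟨0, rfl⟩
    have := hlin (fun _ => 0) (fun _ => 0) 1 v h0 h0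
    simp at this
    exact this
  have h2 : ∀ k, GF.IsTest (pd k (pd k f)) := fun k => isTest_pd (isTest_pd hf)
  have hsm : ∀ (c : ℂ) g, GF.IsTest g → L (fun x => c * g x) v = c • L g v := by
    intro c g hg
    have := hlin (fun _ => 0) g c v ⟨0, rfl⟩ hg
    simpa [hz] using this
  have hbox : L (box f) v = ∑ k, (eta k : ℂ) • L (pd k (pd k f)) v := by
    have e : box f = fun x => ((eta 0 : ℂ) * pd 0 (pd 0 f) x) + 1 * (((eta 1 : ℂ) * pd 1 (pd 1 f) x)
        + 1 * (((eta 2 : ℂ) * pd 2 (pd 2 f) x) + 1 * ((eta 3 : ℂ) * pd 3 (pd 3 f) x))) := by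
      funext x
      simp only [box, Fin.sum_univ_four]
      ring
    have ht : ∀ (c : ℂ) g, GF.IsTest g → GF.IsTest (fun x => c * g x) := by
      rintro c g ⟨G, rfl⟩
      exact ⟨c • G, rfl⟩
    have ha : ∀ (c : ℂ) g g', GF.IsTest g → GF.IsTest g' → GF.IsTest (fun x => g x + c * g' x) := by
      rintro c g g' ⟨G, rfl⟩ ⟨G', rfl⟩
      exact ⟨G + c • G', rfl⟩
    have h3 := ht (eta 3) _ (h2 3)
    have h23 := ha 1 _ _ (ht (eta 2) _ (h2 2)) h3
    have h123 := ha 1 _ _ (ht (eta 1) _ (h2 1)) h23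
    rw [e, hlin _ _ 1 v (ht _ _ (h2 0)) h123, hlin _ _ 1 v (ht _ _ (h2 1)) h23,
      hlin _ _ 1 v (ht _ _ (h2 2)) h3, hsm _ _ (h2 0), hsm _ _ (h2 1), hsm _ _ (h2 2),
      hsm _ _ (h2 3), Fin.sum_univ_four]
    simp only [one_smul]
    abel
  rw [hbox]
  unfold tr improve
  simp only [smul_sub, smul_add, Finset.sum_sub_distrib, Finset.sum_add_distrib]
  have e1 : ∑ m : Ix, (eta m : ℂ) • ((eta m * eta m : ℂ) • L (pd m (pd m f)) v) =
      ∑ k, (eta k : ℂ) • L (pd k (pd k f)) v := by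
    refine Finset.sum_congr rfl fun m _ => ?_
    rw [eta_sq_c, one_smul]
  have e2 : ∀ w : D, ∑ m : Ix, (eta m : ℂ) • ((bas m (eta m) m : ℂ) • w) = (4 : ℂ) • w := by
    intro w
    have : ∀ m : Ix, (eta m : ℂ) • ((bas m (eta m) m : ℂ) • w) = w := by
      intro m
      rw [smul_smul]
      simp [bas, eta_sq_c]
    simp only [this]
    rw [Finset.sum_const]
    simp [← Nat.cast_smul_eq_nsmul ℂ]
  rw [e1, e2]
  module

/-- the candidates for the improvement field form an admissible family -/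
theorem lfam_Lf (hT : Q.IsStress T) (hJ : IsVirial Q T J) (h : ConfGen Q A K)
    (hm : Mom Q T K ∨ Act Q J K)
    (hvac : ∀ a b a' b' f, NPr a b → NPr a' b' → GF.IsTest f →
      Lf J K a b f Q.vac = Lf J K a' b' f Q.vac) : LFam Q (Lf J K) where
  adj := fun a b f v w hp hf => Lf_herm hJ h hp.1 hp.2.1 hf v w
  lin := fun a b f g c v hp hf hg => Lf_lin hJ h hp.1 hp.2.1 hf hg c v
  cont := fun a b v hp => Lf_cont hJ h hp.1 hp.2.1 v
  vac := hvac
  com := by
    intro a b O P P' f v hp hO hP hf hsa hsb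
    unfold Lf
    rcases hm with hm | hm
    · rw [lo_smul hP, lo_add hP, al hT hJ h hm hp.1 hO hP hf hsa b v,
        al hT hJ h hm hp.2.1 hO hP hf hsb a v]
    · rw [lo_smul hP, lo_add hP, al_act hJ h hm hp.1 hO hP hf b v,
        al_act hJ h hm hp.2.1 hO hP hf a v]

/-- the improvement field is covariant -/
lemma Lf_cov (hJ : IsVirial Q T J) (h : ConfGen Q A K) (hF : LFam Q (Lf J K)) {a b : V}
    (hp : NPr a b) {s : ℝ} {M : Ix → V} (x : V) {f : Fn} (v : D) (hs : 0 < s) (hM : IsLor M)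
    (hf : GF.IsTest f) : Lf J K a b f (Q.U s M x v) =
      ((s ^ (4 - 2 : ℝ) : ℝ) : ℂ) • Q.U s M x (Lf J K a b (fun z => f (sim s M x z)) v) := by
  have ha' := isNull_lor hM hp.1
  have hb' := isNull_lor hM hp.2.1
  have hp' : NPr (sim 1 M 0 a) (sim 1 M 0 b) := ⟨ha', hb', by rw [mdot_sim hM]; exact hp.2.2⟩
  rw [hF.agree hp hp' hf]
  have h1 := bk_cov hJ h hs one_pos hM hp.1 ha' (one_smul ℝ _).symm b x hf v
  have h2 := bk_cov hJ h hs one_pos hM hp.2.1 hb' (one_smul ℝ _).symm a x hf v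
  have hs2 : ((s ^ (4 - 2 : ℝ) : ℝ) : ℂ) * ((1 / s ^ 2 : ℝ) : ℂ) = 1 := by
    rw [← Complex.ofReal_mul]
    have : s ^ (4 - 2 : ℝ) = s ^ 2 := by
      rw [show (4 - 2 : ℝ) = ((2 : ℕ) : ℝ) by norm_num, Real.rpow_natCast]
    rw [this, mul_one_div, div_self (by positivity), Complex.ofReal_one]
  unfold Lf
  rw [U_smul hs hM, U_add hs hM, h1, h2, ← smul_add, smul_smul, smul_smul]
  congr 1
  linear_combination -(Complex.I / 24) * hs2

/-- **The improvement field.** -/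
theorem main1 (hT : Q.IsStress T) (hJ : IsVirial Q T J) (h : ConfGen Q A K)
    (hm : Mom Q T K ∨ Act Q J K) :
    ∃ (Q' : Theory D) (L : Fld D), IsEnl Q Q' ∧ Q'.IsScalar L 2 ∧
      IsImpr Q' T (improve T L) := by
  obtain ⟨Y, hY⟩ := tens hT hJ h
  obtain ⟨y1, y2, y3, y4, y5⟩ := hY
  have hprim : ∀ a f, IsNull a → GF.IsTest f → K a (Y f) = -(Complex.I • Y (kd a 2 f)) :=
    fun a f ha hf => H148.prim h y2 y3 y4 ha hf
  have hLY : ∀ a b f, NPr a b → GF.IsTest f → Lf J K a b f Q.vac = (Complex.I / 12) • Y f := by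
    intro a b f hp hf
    unfold Lf
    rw [y1 a b f hp.1 hp.2.1 hf, hp.2.2, smul_smul]
    congr 1
    push_cast
    ring
  have hF : LFam Q (Lf J K) := lfam_Lf hT hJ h hm fun a b a' b' f hp hp' hf => by
    rw [hLY a b f hp hf, hLY a' b' f hp' hf]
  have htr0 : ∀ f, GF.IsTest f → tr T f Q.vac = (3 : ℂ) • Lf J K a0 b0 (box f) Q.vac := by
    intro f hf
    have hb : GF.IsTest (box f) := by
      obtain ⟨F, rfl⟩ := exists_fl hf
      rw [box_fl]
      exact isTest_fl _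
    rw [trace_vac hT hJ h ⟨y1, y2, y3, y4, y5⟩ hprim hf, hLY a0 b0 _ npr0 hb, smul_smul]
    congr 1
    ring
  obtain ⟨Q', h1, h2⟩ := exists_enl Q (Lf J K a0 b0)
    (fun f g c v hf hg => Lf_lin hJ h npr0.1 npr0.2.1 hf hg c v)
    (fun v => Lf_cont hJ h npr0.1 npr0.2.1 v)
    (fun f v w hf => Lf_herm hJ h npr0.1 npr0.2.1 hf v w)
    (fun B f g v hB hf hg hs => hF.loc_fld npr0 hB hf hg hs v)
    (fun f g v hf hg hs => hF.loc_self npr0 hf hg hs v)
    (fun s M x f v hs hM hf => Lf_cov hJ h hF npr0 x v hs hM hf)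
  refine ⟨Q', Lf J K a0 b0, h1, h2, isImpr hT h1 h2 fun f v hf => ?_⟩
  rw [tr_improve (fun f g c v hf hg => Lf_lin hJ h npr0.1 npr0.2.1 hf hg c v) hf,
    hF.trace hT npr0 htr0 hf, sub_self]

end Vale.Agent.P352.H15

end
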