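import Vale.Agent.P352.H755.TP

open MeasureTheory Filter Topology
open scoped ComplexConjugate ContDiff

namespace Vale.Agent.P352.H15

open GF H246 H496 H755

noncomputable section

/-- `X` is the velocity field `z ↦ c + r z + w z` of a curve of similitudes, with rate of
expansion `r` and an infinitesimal Lorentz transformation `w`. -/
def IsSim (r : ℝ) (X : V → V) : Prop := ∃ (c : V) (w : Ix → V),
  (∀ m n, eta n * w m n = -(eta m * w n m)) ∧ ∀ z n, X z n = c n + r * z n + ∑ m, z m * w m n

/-- The conformal Killing vector field `z ↦ 2 (a·z) z - (z·z) a`. -/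
def cK (a z : V) : V := (2 * mdot a z) • z - mdot z z • a

/-- The square of the length of the component of `x` orthogonal to the null vectors `a` and `b`
with `a·b = 1`. -/
def sq (a b x : V) : ℝ := 2 * mdot a x * mdot b x - mdot x x

/-- The cutoffs `cut` with centre `y`, multiplied by a function of `a·x`. -/
def ctf (a b : V) (κ : V → ℝ) (y : V) (ψ : ℝ → ℝ) (R : ℝ) (x : V) : ℝ :=
  cut a b κ R (x - y) * ψ (mdot a x)

variable {D : Type*} [NormedAddCommGroup D] [InnerProductSpace ℂ D]

/-- `T` smeared with the tensor field `F`. -/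
def sm (T : Ix → Ix → Fld D) (F : Ix → Ix → V → ℝ) (v : D) : D :=
  ∑ m, ∑ n, T m n (fun x => (F m n x : ℂ)) v

/-- `U` is a representation of the group of similitudes, and the vectors of `D` are in the domain
of its generators: `A X` is the generator with velocity field `X`, a linear function of `X`. -/
structure Rep (Q : Theory D) (A : (V → V) → D → D) : Prop where
  mul : ∀ s L a s' L' a' v, 0 < s → 0 < s' → IsLor L → IsLor L' →
    Q.U s L a (Q.U s' L' a' v) = Q.U (s * s') (fun m => sim 1 L 0 (L' m)) (sim s L a a') v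
  add : ∀ r r' (c : ℝ) X X' v, IsSim r X → IsSim r' X' →
    A (fun z => X z + c • X' z) v = A X v + (c : ℂ) • A X' v
  der : ∀ (s : ℝ → ℝ) (L : ℝ → Ix → V) (a : ℝ → V) X v, s 0 = 1 → L 0 = GF.one → a 0 = 0 →
    (∀ e, 0 < s e ∧ IsLor (L e)) →
    (∀ n x, HasDerivAt (fun e => sim (s e) (L e) (a e) x n) (X x n) 0) →
    HasDerivAt (fun e => Q.U (s e) (L e) (a e) v) (Complex.I • A X v) 0

/-- The admissible data: null vectors `a`, `b` with `a·b = 1`, a cutoff function `κ` that is one
near the origin, and a test function `ψ`. -/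
def Adm (a b : V) (κ : V → ℝ) (ψ : ℝ → ℝ) : Prop :=
  IsNull a ∧ IsNull b ∧ mdot a b = 1 ∧ Tst κ ∧ (∀ᶠ x in 𝓝 0, κ x = 1) ∧ Tst ψ

/-- The second moments `K a` of the null energy density `T_aa` on the null hyperplane `a·x = 0`
exist, as operators on `D`. -/
def Mom (Q : Theory D) (T : Ix → Ix → Fld D) (K : V → D → D) : Prop :=
  ∀ a b κ y ψ v w, Adm a b κ ψ → Tendsto (fun R => inner ℂ w (sm T (fun m n x =>
    eta m * a m * (eta n * a n) * sq a b x * ctf a b κ y ψ R x) v)) atTop
    (𝓝 (∫ u, (ψ u : ℂ) * inner ℂ w (Q.U 1 GF.one (u • b) (K a (Q.U 1 GF.one (-(u • b)) v)))))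

/-- The charges on null hyperplanes: the charges of the currents `X^n T_{mn} - r J_m` (`X` with rate
of expansion `r`) are the generators `A X`, the second moments `K a` of `T_aa` exist, are
continuous under translations, and the conformal current has no flux at infinity between
null hyperplanes. -/
structure NullCharges (Q : Theory D) (T : Ix → Ix → Fld D) (J : Ix → Fld D)
    (A : (V → V) → D → D) (K : V → D → D) : Prop extends Rep Q A where
  gen : ∀ a b κ y ψ r X v w, Adm a b κ ψ → IsSim r X → Tendsto (fun R => inner ℂ w (sm T (fun m n x =>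
      eta m * a m * (eta n * X x n) * ctf a b κ y ψ R x) v -
      ∑ m, (r : ℂ) • J m (fun x => (eta m * a m * ctf a b κ y ψ R x : ℝ)) v)) atTop
    (𝓝 ((∫ u, (ψ u : ℂ)) * inner ℂ w (A X v)))
  mom : Mom Q T K
  cont : ∀ a b v w, IsNull a → IsNull b →
    Continuous fun u : ℝ => inner ℂ w (Q.U 1 GF.one (u • b) (K a (Q.U 1 GF.one (-(u • b)) v)))
  flux : ∀ a b κ ψ v w, Adm a b κ ψ → Tendsto (fun R => inner ℂ w (sm T (fun m n x =>
    dr m (cut a b κ R) x * ψ (mdot a x) * (eta n * cK a x n)) v)) atTop (𝓝 0)

/-- The on-shell dilaton constraint: the trace of `T` and the null component of the virial current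
`J` vanish when they are integrated over null hyperplanes. -/
structure OnShell (Q : Theory D) (T : Ix → Ix → Fld D) (J : Ix → Fld D) : Prop where
  tr : ∀ a b κ y ψ v w, Adm a b κ ψ → Tendsto (fun R => inner ℂ w
    (tr T (fun x => (ctf a b κ y ψ R x : ℂ)) v)) atTop (𝓝 0)
  vir : ∀ a b κ y ψ v w, Adm a b κ ψ → Tendsto (fun R => inner ℂ w
    (∑ m, J m (fun x => (eta m * a m * ctf a b κ y ψ R x : ℝ)) v)) atTop (𝓝 0)

/-- The symmetric operators `K a` obey the commutation relations of special conformal generators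
with the similitudes: `U(x) K_a U(-x) - K_a` is the generator whose velocity field is the difference
of the conformal Killing vector fields `cK a` centred at `x` and at the origin. -/
structure ConfGen (Q : Theory D) (A : (V → V) → D → D) (K : V → D → D) :
    Prop extends Rep Q A where
  symm : ∀ a v w, IsNull a → inner ℂ (K a v) w = inner ℂ v (K a w)
  cov : ∀ s L r a b v, 0 < s → 0 < r → IsLor L → IsNull a → IsNull b → sim 1 L 0 a = r • b →
    Q.U s L 0 (K a v) = ((r / s : ℝ) : ℂ) • K b (Q.U s L 0 v)
  tra : ∀ a x v, IsNull a → Q.U 1 GF.one x (K a (Q.U 1 GF.one (-x) v)) = K a v +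
    A (fun z => -(2 * mdot a x) • z + (2 * mdot x z) • a - (2 * mdot a z) • x + cK a x) v

/-- `Q'` has the same vacuum and the same representation of the similitudes as `Q`, and all fields
of `Q`. -/
structure IsEnl (Q Q' : Theory D) : Prop where
  vac : Q'.vac = Q.vac
  U : Q'.U = Q.U
  fld : ∀ A, Q.fld A → Q'.fld A
  bose : ∀ A, Q.bose A → Q'.bose A

end

end Vale.Agent.P352.H15
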