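import Vale.Agent.P352.H731.Nc5
import Vale.Agent.P352.H755.Kc
import Vale.Agent.P352.H746.NoGen
import Vale.Agent.P352.H121.Wd

/-!
# The null-plane charge of the virial current vanishes on covariant families, unconditionally
-/

set_option linter.all false

noncomputable section

open MeasureTheory Filter Topology Set
open scoped SchwartzMap ContDiff ComplexConjugate

namespace Vale.Agent.P352.H15

open GF (Ix V Fn Fld Theory Sch IsLor bas eta o sim pd tr improve ev bar Sep IsTest)
open H246 H496 H755 H746 H846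
open H121 (Cop TrNull)

variable {D : Type*} [NormedAddCommGroup D] [InnerProductSpace ℂ D]
variable {Q : GF.Theory D} {T : Ix → Ix → GF.Fld D} {J : Ix → GF.Fld D}
  {A : (V → V) → D → D} {K : V → D → D}

/-- the Ward identity -/
theorem wb_of {a : V} (ha : GF.mdot a a = 0) : H731.WB a :=
  fun p q β hal har hsl hsr h F G => H121.ward_beta p q β hal har hsl hsr h ha F G

/-- the charge vanishes on covariant families -/
theorem key (hT : Q.IsStress T) (hJ : IsVirial Q T J) (h : NullCharges Q T J A K)
    (ht : TrNull T) (a b : V) (ha : IsNull a) (hb : IsNull b) (hab : GF.mdot a b = 1)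
    (p q : ℝ) (Y : 𝓢(Mink, ℂ) → D) (hY : YB Q a p q Y) (F : 𝓢(Mink, ℂ)) :
    Cop Q A K a b (Y F) = 0 :=
  (H755.kc_of hT hJ h ht ha hb hab).key (wb_of ha.1) p q Y hY F

/-- **Null-plane integrals of the trace vanish iff some `L` improves `T` with conformal
invariance.** -/
theorem iff_impr (hT : Q.IsStress T) (hJ : IsVirial Q T J) (h : NullCharges Q T J A K) :
    TrNull T ↔ ∃ L : Fld D, ∀ Q₁ : Theory D, IsEnl Q Q₁ → ∃ Q₂ : Theory D, IsEnl Q₁ Q₂ ∧
      Q₂.IsScalar L 2 ∧ Q₂.IsStress (improve T L) ∧ IsImpr Q₂ T (improve T L) ∧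
      ConfAct Q₂ (improve T L) :=
  iff_key hT hJ h (key hT hJ h)

/-- **Generated theories: also iff the moments are conformal generators.** -/
theorem iff_confGen (hT : Q.IsStress T) (hJ : IsVirial Q T J) (h : NullCharges Q T J A K)
    (hg : TGen Q) : ConfGen Q A K ↔ TrNull T :=
  confGen_iff_tr_of hT hJ h hg (key hT hJ h)

end Vale.Agent.P352.H15

end
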